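import Crest.Agent.N255.Vc.Ch
import Crest.Agent.N255.Wn.En

/-!
# Row 255 (helper36): the chain of a vertex region is fundamental on the inner core
-/

set_option autoImplicit false
open Set

noncomputable section

namespace Crest.Agent.N255.Sg

open Crest.Agent.N255.Tp Crest.Agent.N255.Wn Crest.Agent.N255.Vc

variable {X : Type} [TopologicalSpace X] {n : ℕ} {𝒞 𝒱 𝒲 : Set (Set X)}

section ring
variable {k : Type} [CommRing k]


theorem Fund.rho {d : ℕ} {O : Ori k d X} {K : Set X} {z : Ch k (d + 1) X} (h : O.Fund K z)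
    (𝒱 : Set (Set X)) : O.Fund K (Sml.rho k 𝒱 (d + 1) z) := by
  refine ⟨by rw [Sml.bd_rho]; exact Sml.rho_mem k 𝒱 _ h.rc, ?_⟩
  have := sub_mem (sub_mem h.eq (bd_mem_Nul Kᶜ (Sml.DD k 𝒱 _ z))) (ch_le_Nul (Sml.DD_mem k 𝒱 _ h.rc))
  convert this using 1
  rw [Sml.rho_succ]; abel

end ring

variable {k : Type} [Field k] {O : Ori k 3 X} {ι : Type} [Fintype ι] {s : ι → C(X, ℝ)} {r : C(X, ℝ)}
  {a b R : ι → ℝ} {w : ι → Ch k 3 X}

/-- the closed region behind the levels `a` -/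
def inn (s : ι → C(X, ℝ)) (a : ι → ℝ) : Set X := {x | ∀ j, s j x ≤ a j}

variable (ho : ∀ C ∈ 𝒞, IsOpen C) (hc : univ ⊆ ⋃₀ 𝒞) [T2Space X]
include ho hc

theorem vertex0 (hw : ∀ j, Wr O 𝒞 (s j) r (a j) (b j) (R j) (w j))
    (hd : ∀ i j, i ≠ j → ∀ x, s i x ≤ a i ∨ s j x ≤ a j) {K : Set X} (hK : IsCompact K) :
    ∃ ρ ∈ (On (core s b)).ch k 4,
      ∃ c ∈ (On (core s b \ K ∪ ⋃ j, fw (s j) r (a j) (b j) (R j))).ch k 3,
        bd k ρ = c + ∑ j, w j ∧ O.Fund (K ∩ inn s a) ρ := by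
  choose ε m L z h1 h2 h3 h4 h5 h6 using fun j => id (hw j)
  let 𝒰 : Set (Set X) := {U | IsOpen U ∧ ∀ j, U ∈ cv 𝒞 (s j) r (ε j)}
  have hU : univ ⊆ ⋃₀ 𝒰 := fun x hx => by
    choose U g1 g2 using fun j => cv_cov ho hc (s := s j) (r := r) (h1 j) hx
    have o : IsOpen (⋂ j, U j) := isOpen_iInter_of_finite fun j => (g1 j).1
    refine ⟨⋂ j, U j, ⟨o, fun j => ⟨o, ?_, fun x hx y hy =>
      (g1 j).2.2 x (mem_iInter.1 hx j) y (mem_iInter.1 hy j)⟩⟩, mem_iInter.2 g2⟩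
    obtain ⟨C, c1, c2⟩ := (g1 j).2.1
    exact ⟨C, c1, (iInter_subset _ j).trans c2⟩
  have hL : IsCompact (K ∪ ⋃ j, L j) := hK.union (isCompact_iUnion h4)
  obtain ⟨y, hy, fy⟩ := fundS_holds k X 3 O _ 𝒰 hL (fun _ h => h.1) ((subset_univ _).trans hU)
  set A := ⋂ j, lo (s j) (m j) with hA
  have alt : ∀ Y ∈ 𝒰, cut k A ∈ (On Y).van k k 0 ∨ Y ⊆ core s b := fun Y hY => by
    by_cases e : Y ⊆ Aᶜ
    · exact .inl (van_mono e cut_van)
    · obtain ⟨x, hx, g⟩ := not_subset.1 e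
      exact .inr fun y hy j => by
        linarith [((hY.2 j).2.2 x hx y hy).1, show s j x < m j from mem_iInter.1 (not_not.1 g) j, h3 j]
  have alt' : ∀ Y ∈ 𝒰, (fun _ => 1) - cut k A ∈ (On Y).van k k 0 ∨ Y ∩ univ ⊆ (K ∩ inn s a)ᶜ :=
    fun Y hY => by
    by_cases e : Y ⊆ A
    · exact .inl (van_mono e one_sub_cut_van)
    · obtain ⟨x, hx, g⟩ := not_subset.1 e
      obtain ⟨j, g⟩ := not_forall.1 (mt mem_iInter.2 g)
      exact .inr fun y hy q => by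
        linarith [((hY.2 j).2.2 y hy.1 x hx).1, not_lo g, q.2 j, h2 j]
  have e2 := fun j => Submodule.mem_sup.1 ((hw j).spec ho hc (h1 j) (h2 j) (h3 j) hL
    ((sdiff_subset_sdiff_right ((subset_iUnion L j).trans subset_union_right)).trans (h5 j))
    (Sb.ch_mono (Sm_le fun U hU => ⟨U, hU.2 j, subset_rfl⟩) hy) fy)
  choose _ p1 f p2 p3 using e2
  choose β q1 q2 using p1
  have cl : IsClosed (inn s a) := by
    rw [show inn s a = ⋂ j, {x | s j x ≤ a j} by ext; simp [inn]]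
    exact isClosed_iInter fun j => isClosed_le (s j).continuous continuous_const
  refine ⟨cap' 4 (cut k A) y - ∑ j, β j, sub_mem (loc_sm cD (T := univ) (fun Y hY => (alt Y hY).imp id
      fun h => inter_subset_left.trans h) hy (mem_ch_univ _))
      (Submodule.sum_mem _ fun j _ => ch_mono (win_core hw hd j) (q1 j)),
    cap' 3 (cut k A) (bd k y) + ∑ j, f j, add_mem (loc_sm cD (T := (K ∪ ⋃ j, L j)ᶜ)
      (fun Y hY => (alt Y hY).imp id fun h x hx => .inl ⟨h hx.1, fun g => hx.2 (.inl g)⟩)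
      (Sb.bd_mem hy) fy.rc) (Submodule.sum_mem _ fun j _ => ch_mono ((subset_iUnion
        (fun j => fw (s j) r (a j) (b j) (R j)) j).trans subset_union_right) (p2 j)), ?_,
    (fy.mono (hK.inter_right cl) hL (inter_subset_left.trans subset_union_left)).of_sub ?_⟩
  · have e1 := wall_iInter (fun j => lo (s j) (m j)) (fun i j e x => (hd i j e x).imp
      (fun h => show s i x < m i by linarith [h1 i, h2 i]) fun h => show s j x < m j by
        linarith [h1 j, h2 j]) y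
    have e3 : ∀ j, bd k (β j) = wall (lo (s j) (m j)) y - w j - f j := fun j => by
      rw [← p3 j, ← q2 j, add_sub_cancel_right]
    rw [map_sub, map_sum, bd_cap' (by omega), Finset.sum_congr rfl fun j _ => e3 j,
      Finset.sum_sub_distrib, Finset.sum_sub_distrib, ← e1, wall]
    norm_num
    abel
  · have := add_mem (loc_sm cD (j := 4) alt' hy (mem_ch_univ _)) (Submodule.sum_mem _ fun j (_ : j ∈ Finset.univ) =>
      ch_mono (fun x (hx : x ∈ win (s j) (a j) (b j)) (q : x ∈ K ∩ inn s a) =>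
        not_le.2 hx.1 (q.2 j)) (q1 j))
    rw [D_sub cD, cap'_one] at this
    convert this using 1
    abel

/-- **the chain of a vertex region** -/
theorem vertexF (hw : ∀ j, Wr O 𝒞 (s j) r (a j) (b j) (R j) (w j))
    (hd : ∀ i j, i ≠ j → ∀ x, s i x ≤ a i ∨ s j x ≤ a j) {K : Set X} (hK : IsCompact K)
    (hV : ∀ U ∈ 𝒱, IsOpen U) (hV' : core s b ⊆ ⋃₀ 𝒱) (hs : ∀ j, w j ∈ (Sm 𝒱).ch k 3)
    (hW : ∀ U ∈ 𝒲, IsOpen U) (h1 : core s b \ K ⊆ ⋃₀ 𝒲)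
    (h2 : ∀ j, ∃ U ∈ 𝒲, fw (s j) r (a j) (b j) (R j) ⊆ U) :
    ∃ ρ ∈ ((On (core s b)).inf (Sm 𝒱)).ch k 4,
      ∃ c ∈ (((On (core s b \ K ∪ ⋃ j, fw (s j) r (a j) (b j) (R j))).inf (Sm 𝒲)).inf (Sm 𝒱)).ch k 3,
        bd k ρ = c + ∑ j, w j ∧ O.Fund (K ∩ inn s a) ρ := by
  obtain ⟨ρ, g1, c, g2, g3, g4⟩ := vertex0 ho hc hw hd hK
  have hF : core s b \ K ∪ ⋃ j, fw (s j) r (a j) (b j) (R j) ⊆ core s b :=
    union_subset sdiff_subset (iUnion_subset fun j => fw_le.trans (win_core hw hd j))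
  have hF' : core s b \ K ∪ ⋃ j, fw (s j) r (a j) (b j) (R j) ⊆ ⋃₀ 𝒲 :=
    union_subset h1 (iUnion_subset fun j => (h2 j).elim fun _ h => h.2.trans (subset_sUnion_of_mem h.1))
  have hb : bd k (∑ j, w j) ∈ (Sm 𝒲).ch k 2 := by
    rw [map_sum]
    exact Submodule.sum_mem _ fun j _ => (h2 j).elim fun _ h =>
      Sb.ch_mono (On_le_Sm h.1) (ch_mono h.2 ((hw j).mem ho hc).2)
  have e : bd k (Sml.rho k 𝒱 4 ρ) = Sml.rho k 𝒱 3 c + ∑ j, w j := by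
    rw [Sml.bd_rho, g3, map_add, Sml.rho_of_sm k 𝒱 (Submodule.sum_mem _ fun j _ => hs j)]
  have h3 := Sml.rho_mem k 𝒱 _ g2
  have h4 := Sb.ch_mono Sb.inf_le_right (Sml.rho_inf k hV (hF.trans hV') g2)
  have h5 : bd k (Sml.rho k 𝒱 3 c) = -bd k (∑ j, w j) := by
    rw [eq_neg_iff_add_eq_zero, ← map_add, ← e, bd_bd]
  refine ⟨Sml.rho k 𝒱 4 ρ - Sml.DD k 𝒲 _ (Sml.rho k 𝒱 3 c), sub_mem (Sml.rho_inf k hV hV' g1)
    (Sml.mem_inf (ch_mono hF (Sml.DD_mem k 𝒲 _ h3)) (DD_small h4)), Sml.rho k 𝒲 _ (Sml.rho k 𝒱 3 c),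
    Sml.mem_inf (Sml.rho_inf k hW hF' h3) (rho_small h4), ?_, (Fund.rho g4 𝒱).of_sub ?_⟩
  · rw [map_sub, e, Sml.rho_succ (c := Sml.rho k 𝒱 3 c), h5, map_neg, Sml.DD_sm k 𝒲 hb]
    abel
  · rw [sub_sub_cancel]
    refine ch_mono ?_ (Sml.DD_mem k 𝒲 _ h3)
    rintro x (hx | hx) q
    · exact hx.2 q.1
    · obtain ⟨j, hx⟩ := mem_iUnion.1 hx
      exact not_le.2 hx.2.1 (q.2 j)

end Crest.Agent.N255.Sg

end
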